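import Vale.Agent.P255.Main

namespace Vale.Agent.Results.P255.Counterexample

open scoped ContDiff Manifold
open Vale.Agent.P255

theorem result : ∃ (M : Type) (_ : TopologicalSpace M) (_ : T2Space M) (_ : CompactSpace M)
    (_ : ConnectedSpace M) (_ : ChartedSpace (ℝ × ℝ × ℝ) M) (_ : IsManifold 𝓘(ℝ, ℝ × ℝ × ℝ) ∞ M),
    (∃ g : Metric (ℝ × ℝ × ℝ) M, g.NoConj) ∧ ∀ g : Metric (ℝ × ℝ × ℝ) M, ¬ g.NPC :=
  main

end Vale.Agent.Results.P255.Counterexample
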